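import Vale.Agent.Results.P146.SharpRate
import Vale.Agent.P146.H605.Defs
import Vale.Agent.P146.H605.Defs2
import Vale.Agent.P146.H605.Order
import Vale.Agent.P146.H605.Fs
import Vale.Agent.P146.H605.Kolm
import Vale.Agent.P146.H605.Low

/-!
# P146: noise sensitivity of the Sherrington-Kirkpatrick free energy at every `β > 1`, together
with its sharp upper tail, concentration and spreading
-/

open MeasureTheory ProbabilityTheory Filter Topology

namespace Vale.Agent.Results.P146.NoiseSensitivity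

open Vale.Agent.P146 Vale.Agent.P146.H605

theorem result : ∃ (c₀ : ℝ) (Λ : ℝ → ℝ), 0 < c₀ ∧ Tendsto Λ (𝓝[>] 1) (𝓝 (9 / 5120)) ∧
    ∀ β : ℝ, 1 < β → 0 < Λ β ∧ ∃ p C a b c D : ℝ, 0 < a ∧ 0 < b ∧ 0 < c ∧
    Tendsto (fun n : ℕ => (∫ g, freeEnergy n β g ∂(disorder n)) / n) atTop (𝓝 p) ∧
    (∀ ε : ℝ, 0 < ε → ∃ δ : ℝ, 0 < δ ∧ ∀ᶠ n : ℕ in atTop,
      (∀ x : ℝ, (n : ℝ) ^ (-(1 / 36) : ℝ) ≤ x → x ≤ δ →
        |Real.log (∫ g, Real.exp (x * (freeEnergy n β g - n * p)) ∂(disorder n)) -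
          Λ β * n * x ^ 6| ≤ ε * n * x ^ 6) ∧
      (∀ s : ℝ, (n : ℝ) ^ (-(1 / 8) : ℝ) ≤ s → s ≤ δ →
        |Real.log ((disorder n).real {g | n * (p + s) ≤ freeEnergy n β g}) +
          5 / 6 * (6 * Λ β) ^ (-(1 / 5) : ℝ) * n * s ^ (6 / 5 : ℝ)| ≤
            ε * n * s ^ (6 / 5 : ℝ))) ∧
    (∀ n : ℕ, 1 ≤ n →
      (∀ x : ℝ, 0 < x → x ≤ 1 →
        ∫ g, Real.exp (x * (freeEnergy n β g - n * p)) ∂(disorder n) ≤ Real.exp (C * n * x ^ 6)) ∧
      (∀ t : ℝ, 0 ≤ t →
        (disorder n).real {g | n * p + t * (n : ℝ) ^ (1 / 6 : ℝ) ≤ freeEnergy n β g} ≤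
          C * Real.exp (-t)) ∧
      (∀ s : ℝ, 0 ≤ s → s ≤ 1 →
        (disorder n).real {g | n * (p + s) ≤ freeEnergy n β g} ≤
          Real.exp (-(a * n * s ^ (6 / 5 : ℝ)))) ∧
      (∀ t : ℝ, 0 ≤ t →
        (disorder n).real {g | freeEnergy n β g ≤ ∫ g, freeEnergy n β g ∂(disorder n) - t} ≤
          Real.exp (-(b * t ^ 2 / (n : ℝ) ^ (19 / 20 : ℝ)))) ∧
      (∀ t : ℝ, 0 ≤ t →
        (disorder n).real {g | t * (n : ℝ) ^ (9 / 20 : ℝ) ≤
          |freeEnergy n β g - ∫ g, freeEnergy n β g ∂(disorder n)|} ≤ C * Real.exp (-(b * t))) ∧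
      -- the distribution function is log-concave
      (∀ s t u v : ℝ, 0 < s → 0 < t → s + t = 1 →
        (disorder n).real {g | freeEnergy n β g ≤ u} ^ s *
          (disorder n).real {g | freeEnergy n β g ≤ v} ^ t ≤
          (disorder n).real {g | freeEnergy n β g ≤ s * u + t * v}) ∧
      -- the variance and the finite size correction of the mean
      ∫ g, freeEnergy n β g ∂(disorder n) ≤ n * p ∧
      n * p - ∫ g, freeEnergy n β g ∂(disorder n) ≤
        D * (n : ℝ) ^ (6 / 7 : ℝ) * (1 + Real.log n) ^ 2 ∧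
      Var[freeEnergy n β; disorder n] ≤ D * (n : ℝ) ^ (1 / 5 : ℝ) *
        (1 + (n * p - ∫ g, freeEnergy n β g ∂(disorder n))) ^ (4 / 5 : ℝ) * (1 + Real.log n) ∧
      Var[freeEnergy n β; disorder n] ≤ D * (n : ℝ) ^ (31 / 35 : ℝ) * (1 + Real.log n) ^ 3 ∧
      -- the order of the variance is the order of the chaos profile, up to `log n`
      (∀ A : ℝ, (∀ t : ℝ, 0 ≤ t → t < 1 →
          (1 - t) * (β ^ 2 / 2 * (n * crossOverlap n β t - 1)) ≤ A) →
        Var[freeEnergy n β; disorder n] ≤ A * Real.log n + β ^ 2 / 2) ∧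
      -- two disorders of correlation `t`
      ∀ t : ℝ, 0 ≤ t → t ≤ 1 →
        0 ≤ crossCov n β t ∧
        crossCov n β t = β ^ 2 / 2 * ∫ s in (0 : ℝ)..t, (n * crossOverlap n β s - 1) ∧
        crossCov n β 1 = Var[freeEnergy n β; disorder n] ∧
        (1 - t) * (β ^ 2 / 2 * (n * crossOverlap n β t - 1)) ≤
          Var[freeEnergy n β; disorder n] ∧
        -- small correlations
        (t ≤ 1 / (8 * β ^ 2) → n * crossOverlap n β t ≤ 4 ∧ crossCov n β t ≤ 1) ∧
        -- chaos at polynomially small changes of the disorder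
        (1 - t) * crossOverlap n β t ≤
          D * (n : ℝ) ^ (-(4 / 35) - c * (1 - t)) * (1 + Real.log n) ^ 3 ∧
        -- order, and its stability at changes of the disorder below `1 / n`
        (1 - 1 / β) ^ 2 - D * (n : ℝ) ^ (-(1 / 14) : ℝ) * (1 + Real.log n) ^ 2 -
          (1 - t) * (β ^ 2 * n / 2) ≤ crossOverlap n β t ∧
        -- Lipschitz functions of the two free energies
        ∀ f h : ℝ → ℝ, LipschitzWith 1 f → LipschitzWith 1 h →
          |(∫ z, ∫ g, ∫ g', f (freeEnergy n β (mixed n t z g)) *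
              h (freeEnergy n β (mixed n t z g')) ∂(disorder n) ∂(disorder n) ∂(disorder n)) -
            (∫ g, f (freeEnergy n β g) ∂(disorder n)) *
              ∫ g, h (freeEnergy n β g) ∂(disorder n)| ≤ crossCov n β t + β ^ 2 * t) ∧
    ∀ᶠ n : ℕ in atTop,
      (⨆ y : ℝ, (disorder n).real {g | |freeEnergy n β g - y| ≤ (n : ℝ) ^ c₀}) ≤
        (n : ℝ) ^ (-c₀) ∧
      (n : ℝ) ^ c₀ ≤ Var[freeEnergy n β; disorder n] ∧
      -- the lower tail at the scale of the standard deviation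
      (∀ u : ℝ, 0 ≤ u →
        (disorder n).real {g | freeEnergy n β g ≤ ∫ g, freeEnergy n β g ∂(disorder n) -
          u * Real.sqrt (Var[freeEnergy n β; disorder n])} ≤ 2 * Real.exp (-(u / 3))) ∧
      -- the conditional law given a small common part of the disorder
      (∀ t x : ℝ, 0 ≤ t → t ≤ 1 / (8 * β ^ 2) →
        ∫ z, ((disorder n).real {g | freeEnergy n β (mixed n t z g) ≤ x} -
          (disorder n).real {g | freeEnergy n β g ≤ x}) ^ 2 ∂(disorder n) ≤
            10 * (n : ℝ) ^ (-c₀)) ∧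
      -- noise sensitivity and asymptotic independence
      (∀ t : ℝ, 0 ≤ t → t ≤ 1 →
        crossCov n β t ≤ (n : ℝ) ^ (-(c * (1 - t))) * Var[freeEnergy n β; disorder n] ∧
        ∀ f h : ℝ → ℝ, LipschitzWith 1 f → LipschitzWith 1 h →
          |(∫ z, ∫ g, ∫ g', f (freeEnergy n β (mixed n t z g) /
                Real.sqrt (Var[freeEnergy n β; disorder n])) *
              h (freeEnergy n β (mixed n t z g') / Real.sqrt (Var[freeEnergy n β; disorder n]))
                ∂(disorder n) ∂(disorder n) ∂(disorder n)) -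
            (∫ g, f (freeEnergy n β g / Real.sqrt (Var[freeEnergy n β; disorder n]))
                ∂(disorder n)) *
              ∫ g, h (freeEnergy n β g / Real.sqrt (Var[freeEnergy n β; disorder n]))
                ∂(disorder n)| ≤ 2 * (n : ℝ) ^ (-(c * (1 - t)))) ∧
      -- the changes of the disorder at which the variance is produced
      ∃ t : ℝ, 0 ≤ t ∧ t < 1 ∧ 1 - t ≤ D * Real.log (Real.log n) / Real.log n ∧
        Var[freeEnergy n β; disorder n] ≤
          2 * Real.log n * ((1 - t) * (β ^ 2 / 2 * (n * crossOverlap n β t - 1))) := by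
  obtain ⟨c₀, Λ, hc₀, hΛ, h⟩ := SharpRate.result
  refine ⟨c₀, Λ, hc₀, hΛ, fun β hβ => ?_⟩
  obtain ⟨hΛ0, p, C, a, b, ha, hb, hlim, hld, hall, hev⟩ := h β hβ
  have hV : ∀ᶠ n : ℕ in atTop, (n : ℝ) ^ c₀ ≤ Var[freeEnergy n β; disorder n] :=
    hev.mono fun n hn => hn.2
  obtain ⟨D₁, hD₁, h1⟩ := chaos_rate hβ.le
  obtain ⟨D₂, hD₂, h2⟩ := order_rate hβ
  obtain ⟨D₃, hD₃, h3⟩ := Sx.rt_low hβ.le
  obtain ⟨D₄, hD₄, h8⟩ := var_fs hβ.le
  obtain ⟨D₅, hD₅, h5⟩ := chaos_combined hβ.le hD₁ fun n hn => (h1 n hn).2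
  obtain ⟨D₆, h6⟩ := level hβ.le hc₀ hV
  obtain ⟨c, hc, hcle, hind⟩ := indep_eventually hβ.le hc₀ hV
  obtain ⟨C', a', A', c', x₀, -, -, -, -, -, hlim', -⟩ := Ld.two_sided hβ (Lb.l1 hβ)
  have hp : p = Sx.pv β := tendsto_nhds_unique hlim hlim'
  obtain ⟨D, hD⟩ : ∃ D, D = max (max (max D₁ D₂) (max D₃ D₄)) (max D₅ D₆) := ⟨_, rfl⟩
  have e1 : D₁ ≤ D := by
    rw [hD]; exact ((le_max_left _ _).trans (le_max_left _ _)).trans (le_max_left _ _)
  have e2 : D₂ ≤ D := by
    rw [hD]; exact ((le_max_right _ _).trans (le_max_left _ _)).trans (le_max_left _ _)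
  have e3 : D₃ ≤ D := by
    rw [hD]; exact ((le_max_left _ _).trans (le_max_right _ _)).trans (le_max_left _ _)
  have e4 : D₄ ≤ D := by
    rw [hD]; exact ((le_max_right _ _).trans (le_max_right _ _)).trans (le_max_left _ _)
  have e5 : D₅ ≤ D := by
    rw [hD]; exact (le_max_left _ _).trans (le_max_right _ _)
  have e6 : D₆ ≤ D := by
    rw [hD]; exact (le_max_right _ _).trans (le_max_right _ _)
  have hβ0 : β ≠ 0 := by positivity
  have hβ2 : 1 < β ^ 2 := one_lt_pow₀ hβ (by norm_num)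
  refine ⟨hΛ0, p, C, a, b, c, D, ha, hb, hc, hlim, hld, fun n hn => ?_, ?_⟩
  · have hn1 : (1 : ℝ) ≤ n := by exact_mod_cast hn
    have hn0 : (0 : ℝ) < n := by linarith
    have hl0 : 0 ≤ Real.log n := Real.log_nonneg hn1
    obtain ⟨q1, q2⟩ := h1 n hn
    obtain ⟨g1, g2, g3, g4, g5, g6, g7, g8⟩ := hall n hn
    refine ⟨g1, g2, g3, g4, g5,
      fun s t u v hs ht hst => free_logconcave n β hs ht hst u v, g7, ?_, ?_, q2.trans ?_,
      fun A hA => var_le_of_prof n β hn hA, fun t ht ht1 => ⟨crossCov_nonneg n β ht ht1, ?_,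
      crossCov_one n β hn, ?_, fun hts => ⟨?_, ?_⟩, ?_, ?_,
      fun f h hf hh => lip_cov n β hn hf hh ht ht1⟩⟩
    · have h4 := h3 n hn
      have h6 : D₃ * (n : ℝ) ^ (6 / 7 : ℝ) * (1 + Real.log n) ^ 2 ≤
          D * (n : ℝ) ^ (6 / 7 : ℝ) * (1 + Real.log n) ^ 2 := by gcongr
      rw [hp]
      linarith
    · have h10 : 0 ≤ 1 + (n * p - ∫ g, freeEnergy n β g ∂(disorder n)) := by linarith
      have h4 := h8 n hn
      rw [← hp] at h4
      refine h4.trans ?_
      gcongr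
    · gcongr
    · rw [crossCov_formula n β hn ht ht1, ← intervalIntegral.integral_const_mul]
      rfl
    · have := var_ge_crossOverlap n β hn ht ht1
      linarith
    · refine small_overlap n β hn hβ0 ht ht1 ?_
      rw [le_div_iff₀ (by positivity)] at hts
      linarith
    · refine crossCov_small n β hn hβ0 ht ht1 ?_
      rw [le_div_iff₀ (by positivity)] at hts
      linarith
    · rcases ht1.eq_or_lt with rfl | hlt
      · have hD0 : 0 ≤ D := by linarith
        have : 0 ≤ D * (n : ℝ) ^ (-(4 / 35) - c * (1 - 1)) * (1 + Real.log n) ^ 3 := by positivity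
        simpa using this
      · have h7 := h5 n hn t ht hlt
        have hlt' : 0 < 1 - t := by linarith
        rw [le_div_iff₀ hlt', mul_comm] at h7
        refine h7.trans ?_
        have h8 : (n : ℝ) ^ (-(4 / 35) - 1 / (5 * Real.log (8 * β ^ 2)) * (1 - t)) ≤
            (n : ℝ) ^ (-(4 / 35) - c * (1 - t)) := by
          refine Real.rpow_le_rpow_of_exponent_le hn1 ?_
          have := mul_le_mul_of_nonneg_right hcle hlt'.le
          linarith
        have hD0 : 0 ≤ D := by linarith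
        gcongr
    · have h4 := h2 n hn
      have h5 := crossOverlap_stable n β hn ht ht1
      have h6 : D₂ * (n : ℝ) ^ (-(1 / 14) : ℝ) * (1 + Real.log n) ^ 2 ≤
          D * (n : ℝ) ^ (-(1 / 14) : ℝ) * (1 + Real.log n) ^ 2 := by gcongr
      linarith
  · have hlog : Tendsto (fun n : ℕ => Real.log n) atTop atTop :=
      Real.tendsto_log_atTop.comp tendsto_natCast_atTop_atTop
    filter_upwards [hev, hind, h6, hlog.eventually_ge_atTop 1, eventually_ge_atTop 1]
      with n k1 k2 k3 k4 hn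
    have hn0 : (0 : ℝ) < n := by exact_mod_cast hn
    refine ⟨k1.1, k1.2,
      fun u hu => free_lower n β ((Real.rpow_pos_of_pos hn0 c₀).trans_le k1.2) hu,
      fun t x ht0 ht1 => cond_law hβ.le hc₀ hn k1.1 ht0 ht1 x, k2, ?_⟩
    obtain ⟨t, t0, t1, t2, t3⟩ := k3
    refine ⟨t, t0, t1, t2.trans ?_, t3⟩
    have h9 : 0 ≤ Real.log (Real.log n) := Real.log_nonneg k4
    have h10 : 0 < Real.log (n : ℝ) := by linarith
    gcongr

end Vale.Agent.Results.P146.NoiseSensitivity
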