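import Vale.Agent.Results.P146.SharpRate
import Vale.Agent.P146.H605.Defs
import Vale.Agent.P146.H605.Order
import Vale.Agent.P146.H605.Fs

/-!
# P146: sharp upper tail, concentration and spreading of the Sherrington-Kirkpatrick free energy
at every `β > 1`, together with disorder chaos at a polynomial scale and the equivalence of the
order of the variance with the order of the chaos profile
-/

open MeasureTheory ProbabilityTheory Filter Topology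

namespace Vale.Agent.Results.P146.SharpRateChaos

open Vale.Agent.P146 Vale.Agent.P146.H605

theorem result : ∃ (c₀ : ℝ) (Λ : ℝ → ℝ), 0 < c₀ ∧ Tendsto Λ (𝓝[>] 1) (𝓝 (9 / 5120)) ∧
    ∀ β : ℝ, 1 < β → 0 < Λ β ∧ ∃ p C a b D : ℝ, 0 < a ∧ 0 < b ∧
    Tendsto (fun n : ℕ => (∫ g, freeEnergy n β g ∂(disorder n)) / n) atTop (𝓝 p) ∧
    (∀ ε : ℝ, 0 < ε → ∃ δ : ℝ, 0 < δ ∧ ∀ᶠ n : ℕ in atTop,
      (∀ x : ℝ, (n : ℝ) ^ (-(1 / 36) : ℝ) ≤ x → x ≤ δ →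
        |Real.log (∫ g, Real.exp (x * (freeEnergy n β g - n * p)) ∂(disorder n)) -
          Λ β * n * x ^ 6| ≤ ε * n * x ^ 6) ∧
      (∀ s : ℝ, (n : ℝ) ^ (-(1 / 8) : ℝ) ≤ s → s ≤ δ →
        |Real.log ((disorder n).real {g | n * (p + s) ≤ freeEnergy n β g}) +
          5 / 6 * (6 * Λ β) ^ (-(1 / 5) : ℝ) * n * s ^ (6 / 5 : ℝ)| ≤
            ε * n * s ^ (6 / 5 : ℝ))) ∧
    (∀ n : ℕ, 1 ≤ n →
      (∀ x : ℝ, 0 < x → x ≤ 1 →
        ∫ g, Real.exp (x * (freeEnergy n β g - n * p)) ∂(disorder n) ≤ Real.exp (C * n * x ^ 6)) ∧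
      (∀ t : ℝ, 0 ≤ t →
        (disorder n).real {g | n * p + t * (n : ℝ) ^ (1 / 6 : ℝ) ≤ freeEnergy n β g} ≤
          C * Real.exp (-t)) ∧
      (∀ s : ℝ, 0 ≤ s → s ≤ 1 →
        (disorder n).real {g | n * (p + s) ≤ freeEnergy n β g} ≤
          Real.exp (-(a * n * s ^ (6 / 5 : ℝ)))) ∧
      (∀ t : ℝ, 0 ≤ t →
        (disorder n).real {g | freeEnergy n β g ≤ ∫ g, freeEnergy n β g ∂(disorder n) - t} ≤
          Real.exp (-(b * t ^ 2 / (n : ℝ) ^ (19 / 20 : ℝ)))) ∧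
      (∀ t : ℝ, 0 ≤ t →
        (disorder n).real {g | t * (n : ℝ) ^ (9 / 20 : ℝ) ≤
          |freeEnergy n β g - ∫ g, freeEnergy n β g ∂(disorder n)|} ≤ C * Real.exp (-(b * t))) ∧
      n * p - C * (n : ℝ) ^ (7 / 8 : ℝ) ≤ ∫ g, freeEnergy n β g ∂(disorder n) ∧
      ∫ g, freeEnergy n β g ∂(disorder n) ≤ n * p ∧
      Var[freeEnergy n β; disorder n] ≤ C * (n : ℝ) ^ (8 / 9 : ℝ)) ∧
    (∀ᶠ n : ℕ in atTop,
      (⨆ y : ℝ, (disorder n).real {g | |freeEnergy n β g - y| ≤ (n : ℝ) ^ c₀}) ≤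
        (n : ℝ) ^ (-c₀) ∧
      (n : ℝ) ^ c₀ ≤ Var[freeEnergy n β; disorder n]) ∧
    -- the order of the variance is the order of the chaos profile, up to `log n`
    (∀ n : ℕ, 1 ≤ n →
      Var[freeEnergy n β; disorder n] =
        β ^ 2 / 2 * ∫ t in (0 : ℝ)..1, (n * crossOverlap n β t - 1) ∧
      (∀ t : ℝ, 0 ≤ t → t ≤ 1 → (1 - t) * (β ^ 2 / 2 * (n * crossOverlap n β t - 1)) ≤
        Var[freeEnergy n β; disorder n]) ∧
      (∀ A : ℝ, (∀ t : ℝ, 0 ≤ t → t < 1 →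
          (1 - t) * (β ^ 2 / 2 * (n * crossOverlap n β t - 1)) ≤ A) →
        Var[freeEnergy n β; disorder n] ≤ A * Real.log n + β ^ 2 / 2) ∧
      -- chaos at polynomially small changes of the disorder
      (∀ t : ℝ, 0 ≤ t → t < 1 → crossOverlap n β t ≤
        D * (n : ℝ) ^ (-(4 / 35) : ℝ) * (1 + Real.log n) ^ 2 / (1 - t)) ∧
      -- order, and its stability at changes of the disorder below `1 / n`
      (∀ t : ℝ, 0 ≤ t → t ≤ 1 →
        (1 - 1 / β) ^ 2 - D * (n : ℝ) ^ (-(1 / 14) : ℝ) * (1 + Real.log n) ^ 2 -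
          (1 - t) * (β ^ 2 * n / 2) ≤ crossOverlap n β t) ∧
      -- the variance and the finite size correction of the mean
      Var[freeEnergy n β; disorder n] ≤ D * (n : ℝ) ^ (1 / 5 : ℝ) *
        (1 + (n * p - ∫ g, freeEnergy n β g ∂(disorder n))) ^ (4 / 5 : ℝ) * (1 + Real.log n) ∧
      n * p - ∫ g, freeEnergy n β g ∂(disorder n) ≤
        D * (n : ℝ) ^ (6 / 7 : ℝ) * (1 + Real.log n) ^ 2 ∧
      Var[freeEnergy n β; disorder n] ≤ D * (n : ℝ) ^ (31 / 35 : ℝ) * (1 + Real.log n) ^ 3) ∧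
    ∀ᶠ n : ℕ in atTop, ∃ t : ℝ, 0 ≤ t ∧ t < 1 ∧
      (n : ℝ) ^ (c₀ / 2) ≤ n * (1 - t) * crossOverlap n β t := by
  obtain ⟨c₀, Λ, hc₀, hΛ, h⟩ := SharpRate.result
  refine ⟨c₀, Λ, hc₀, hΛ, fun β hβ => ?_⟩
  obtain ⟨hΛ0, p, C, a, b, ha, hb, hlim, hld, hall, hev⟩ := h β hβ
  obtain ⟨D₁, hD₁, h1⟩ := chaos_rate hβ.le
  obtain ⟨D₂, hD₂, h2⟩ := order_rate hβ
  obtain ⟨D₃, hD₃, h3⟩ := Sx.rt_low hβ.le
  obtain ⟨D₄, hD₄, h8⟩ := var_fs hβ.le
  obtain ⟨C', a', A', c', x₀, -, -, -, -, -, hlim', -⟩ := Ld.two_sided hβ (Lb.l1 hβ)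
  have hp : p = Sx.pv β := tendsto_nhds_unique hlim hlim'
  obtain ⟨D, hD⟩ : ∃ D, D = max (max D₁ D₂) (max D₃ D₄) := ⟨_, rfl⟩
  have e1 : D₁ ≤ D := by rw [hD]; exact (le_max_left _ _).trans (le_max_left _ _)
  have e2 : D₂ ≤ D := by rw [hD]; exact (le_max_right _ _).trans (le_max_left _ _)
  have e3 : D₃ ≤ D := by rw [hD]; exact (le_max_left _ _).trans (le_max_right _ _)
  have e4 : D₄ ≤ D := by rw [hD]; exact (le_max_right _ _).trans (le_max_right _ _)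
  refine ⟨hΛ0, p, C, a, b, D, ha, hb, hlim, hld, hall, hev, fun n hn => ?_,
    prof_large hc₀ (hev.mono fun n hn => hn.2)⟩
  have hn1 : (1 : ℝ) ≤ n := by exact_mod_cast hn
  have hn0 : (0 : ℝ) < n := by linarith
  have hl0 : 0 ≤ Real.log n := Real.log_nonneg hn1
  obtain ⟨q1, q2⟩ := h1 n hn
  refine ⟨var_formula n β hn, fun t ht ht1 => ?_, fun A hA => var_le_of_prof n β hn hA,
    fun t ht ht1 => (q1 t ht ht1).trans ?_, fun t ht ht1 => ?_, ?_, ?_, q2.trans ?_⟩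
  · have := var_ge_crossOverlap n β hn ht ht1
    linarith
  · have : 0 < 1 - t := by linarith
    gcongr
  · have h4 := h2 n hn
    have h5 := crossOverlap_stable n β hn ht ht1
    have h6 : D₂ * (n : ℝ) ^ (-(1 / 14) : ℝ) * (1 + Real.log n) ^ 2 ≤
        D * (n : ℝ) ^ (-(1 / 14) : ℝ) * (1 + Real.log n) ^ 2 := by gcongr
    linarith
  · have h9 : ∫ g, freeEnergy n β g ∂(disorder n) ≤ n * p := (hall n hn).2.2.2.2.2.2.1
    have h10 : 0 ≤ 1 + (n * p - ∫ g, freeEnergy n β g ∂(disorder n)) := by linarith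
    have h4 := h8 n hn
    rw [← hp] at h4
    refine h4.trans ?_
    gcongr
  · have h4 := h3 n hn
    have h6 : D₃ * (n : ℝ) ^ (6 / 7 : ℝ) * (1 + Real.log n) ^ 2 ≤
        D * (n : ℝ) ^ (6 / 7 : ℝ) * (1 + Real.log n) ^ 2 := by gcongr
    rw [hp]
    linarith
  · gcongr

end Vale.Agent.Results.P146.SharpRateChaos
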